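import Vale.Agent.P284.H213.Grp.AsmS
import Vale.Agent.P284.H885.Etale
import Vale.Agent.P284.H894.F.Defs
import Vale.Agent.P284.H894.G.Amen

/-!
# P284 (helper213), group assembly with a class `D` of manifolds and amenable quotients: statements

`D n X` is a property of the projective manifold `X` (dominated by `ℂᴺ`, dominated somewhere by `ℂᴺ`,
all finite étale coverings special, ...) which passes to finite étale coverings.

Inputs: `AlbUD D`, `MFD D`, `CoreD D`; conclusion `MainPiQ D`: every amenable quotient of the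
fundamental group has an abelian subgroup of finite index with at most `2 n` generators.
-/

open scoped Manifold ContDiff Topology Pointwise ComplexConjugate ComplexOrder
open Filter Set Metric MeasureTheory

noncomputable section

namespace Vale.Agent.P284.H213.Q

open Vale.Agent.P272.K Vale.Agent.P284.H248 Vale.Agent.P284.H894 Vale.Agent.P284.H894.G
  Vale.Agent.P284.H894.V Vale.Agent.P284.H894.W Vale.Agent.P284.H894.F Vale.Agent.P284.H998
  Vale.Agent.P284.H213.Grp

/-- a class of complex manifolds -/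
abbrev Cls : Type 1 := ∀ (n : ℕ) (X : Type) [TopologicalSpace X] [ChartedSpace (Cm n) X], Prop

/-- the class is stable under finite étale coverings -/
def EtSt (D : Cls) : Prop :=
  ∀ (n : ℕ) (X : Type) [TopologicalSpace X] [T2Space X] [CompactSpace X] [ConnectedSpace X]
    [ChartedSpace (Cm n) X] [IsManifold 𝓘(ℂ, Cm n) ω X]
    (Y : Type) [TopologicalSpace Y] [T2Space Y] [CompactSpace Y] [ConnectedSpace Y]
    [ChartedSpace (Cm n) Y] [IsManifold 𝓘(ℂ, Cm n) ω Y] (π : Y → X),
    H885.Etale n π → IsCoveringMap π → D n X → D n Y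

/-- **ALB+U**: the Albanese data exist, with a regular point. -/
def AlbUD (D : Cls) : Prop :=
  ∀ (n : ℕ) (X : Type) [TopologicalSpace X] [T2Space X] [CompactSpace X] [ConnectedSpace X]
    [ChartedSpace (Cm n) X] [IsManifold 𝓘(ℂ, Cm n) ω X] (ι : Type) [Fintype ι] (_ : PJ n X ι)
    (_ : D n X) (w : Chart n X → Cm n → Matrix (Fin n) (Fin n) ℂ), IsKahler w →
    ∀ (E Γ : Type) [TopologicalSpace E] [SimplyConnectedSpace E] [Group Γ] [MulAction Γ E]
      (p : E → X), IsGalois Γ p →
    ∃ (G K : Subgroup Γ) (q : ℕ) (F : E → Cm q) (c : Γ → Cm q), Alb p w G K F c ∧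
      ∃ y, Reg (n := n) p F y

/-- **MF**: for every equivariant map to `ℂ^q` with lattice periods, of rank `q` somewhere, the generic
fibre is connected. -/
def MFD (D : Cls) : Prop :=
  ∀ (n : ℕ) (X : Type) [TopologicalSpace X] [T2Space X] [CompactSpace X] [ConnectedSpace X]
    [ChartedSpace (Cm n) X] [IsManifold 𝓘(ℂ, Cm n) ω X] (ι : Type) [Fintype ι] (_ : PJ n X ι)
    (_ : D n X) (w : Chart n X → Cm n → Matrix (Fin n) (Fin n) ℂ), IsKahler w →
    ∀ (E Γ : Type) [TopologicalSpace E] [ConnectedSpace E] [Group Γ] [MulAction Γ E]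
      (p : E → X), IsGalois Γ p →
    ∀ (q : ℕ) (F : E → Cm q) (c : Γ → Cm q), (∃ B, HolB p w F B) → (∀ g y, F (g • y) = F y + c g) →
      LatChar Γ q c → (∃ y, Reg (n := n) p F y) → GenConn (n := n) p F

/-- **CORE**: there are no normalised data with an amenable group. -/
def CoreD (D : Cls) : Prop :=
  ∀ (n : ℕ) (X : Type) [TopologicalSpace X] [T2Space X] [CompactSpace X] [ConnectedSpace X]
    [ChartedSpace (Cm n) X] [IsManifold 𝓘(ℂ, Cm n) ω X] (ι : Type) [Fintype ι] (_ : PJ n X ι)
    (_ : D n X) (w : Chart n X → Cm n → Matrix (Fin n) (Fin n) ℂ), IsKahler w →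
    ∀ (E Γ : Type) [TopologicalSpace E] [ConnectedSpace E] [Group Γ] [MulAction Γ E]
      (p : E → X), IsGalois Γ p → Folner Γ →
    ∀ (q : ℕ) (F : E → Cm q) (c : Γ → Cm q) (K : Subgroup Γ), (∃ B, HolB p w F B) →
      (∀ g y, F (g • y) = F y + c g) → (∃ y, Reg (n := n) p F y) → GenConn (n := n) p F →
      NPkg Γ q c K → False

/-- amenable quotients of the group of a simply connected covering -/
def MainSCQ (D : Cls) : Prop :=
  ∀ (n : ℕ) (X : Type) [TopologicalSpace X] [T2Space X] [CompactSpace X] [ConnectedSpace X]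
    [ChartedSpace (Cm n) X] [IsManifold 𝓘(ℂ, Cm n) ω X] (ι : Type) [Fintype ι] (_ : PJ n X ι)
    (_ : D n X) (w : Chart n X → Cm n → Matrix (Fin n) (Fin n) ℂ), IsKahler w →
    ∀ (E Γ : Type) [TopologicalSpace E] [SimplyConnectedSpace E] [Group Γ] [MulAction Γ E]
      (p : E → X), IsGalois Γ p →
    ∀ (Q : Type) [Group Q] (f : Γ →* Q), Function.Surjective f → Folner Q →
      VirtAbelianRank Q (2 * n)

/-- amenable quotients of the fundamental group -/
def MainPiQ (D : Cls) : Prop :=
  ∀ (n : ℕ) (X : Type) [TopologicalSpace X] [T2Space X] [CompactSpace X] [ConnectedSpace X]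
    [ChartedSpace (Cm n) X] [IsManifold 𝓘(ℂ, Cm n) ω X] (ι : Type) [Fintype ι] (_ : PJ n X ι)
    (_ : D n X) (w : Chart n X → Cm n → Matrix (Fin n) (Fin n) ℂ), IsKahler w →
    ∀ (x : X) (Q : Type) [Group Q] (f : FundamentalGroup X x →* Q), Function.Surjective f →
      Folner Q → VirtAbelianRank Q (2 * n)

end Vale.Agent.P284.H213.Q
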