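import Vale.Agent.P284.H213.Q.FolQuo
import Vale.Agent.P284.H213.Grp.Norm
import Vale.Agent.P284.H731.Lat
import Vale.Agent.P284.H465.V19

/-!
# P284 (helper213): normalisation for an amenable quotient `Q` of the group
-/

open scoped Topology
open Filter Set Metric

noncomputable section

namespace Vale.Agent.P284.H213.Q

open Vale.Agent.P272.K Vale.Agent.P284.H894.G Vale.Agent.P284.H894.V Vale.Agent.P284.H213.Grp

/-- a group with a lattice of periods and amenable kernel is amenable -/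
theorem folner_of_lat {G : Type} [Group G] {N : ℕ} {c : G → Cm N} (h : LatChar G N c)
    (K : Subgroup G) (hK : ∀ g, g ∈ K ↔ c g = 0) (hf : Folner K) : Folner G := by
  obtain ⟨c', hc', hker⟩ := H731.Lat.latStmt G ⊤ K N c (fun g _ k _ => h.add g k)
    (fun g => by rw [hK]; exact ⟨fun h => ⟨trivial, h⟩, fun h => h.2⟩)
    (fun R => by
      refine (h.disc R).subset ?_
      rintro v ⟨⟨g, -, rfl⟩, hv⟩
      exact ⟨⟨g, rfl⟩, hv⟩)
    (by rw [Subgroup.coe_top, Set.image_univ]; exact h.span)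
  have hk : Folner c'.ker := by
    rw [hker]
    exact H446.QC.folner_iso hf (Subgroup.subgroupOfEquivOfLe (le_top : K ≤ ⊤)).symm
  exact H446.QC.folner_iso (folner_ext c' hc' (folner_zpow _) hk) Subgroup.topEquiv

/-- **NORM for an amenable quotient**: `f : G → Q`, `Q` amenable, the image of `K = ker c` in `Q` is
infinite and not virtually indicable -/
theorem normQ {G Q : Type} [Group G] [Group Q] (f : G →* Q) (hQ : Folner Q) (N : ℕ) (c : G → Cm N)
    (hlat : LatChar G N c) (K : Subgroup G) (hK : ∀ g, g ∈ K ↔ c g = 0) (hfg : Group.FG K)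
    (hinf : Infinite (K.map f)) (hnvi : ¬ VirtIndicable (K.map f)) :
    ∃ (M : Subgroup G) (_ : M.Normal) (q : ℕ) (L : Cm N →ₗ[ℂ] Cm q) (c₁ : G ⧸ M → Cm q)
      (K₁ : Subgroup (G ⧸ M)), Function.Surjective L ∧ (∀ g : G, c₁ (g : G ⧸ M) = L (c g)) ∧
      NPkg (G ⧸ M) q c₁ K₁ ∧ Folner (G ⧸ M) := by
  have hKn : K.Normal := ⟨fun x hx g => by
    rw [hK] at hx ⊢
    rw [hlat.conj]; exact hx⟩
  set M₀ : Subgroup G := K ⊓ f.ker with hM₀
  have hM₀n : M₀.Normal := inferInstance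
  obtain ⟨c₀, hc₀, hlat₀⟩ := exists_lift hlat M₀ (fun g hg => (hK g).1 hg.1)
  set K₀ : Subgroup (G ⧸ M₀) := K.map (QuotientGroup.mk' M₀) with hK₀
  have hmem : ∀ g : G, (g : G ⧸ M₀) ∈ K₀ ↔ g ∈ K := by
    intro g
    constructor
    · rintro ⟨k, hk, hkg⟩
      have h1 : k⁻¹ * g ∈ M₀ := QuotientGroup.eq.1 hkg
      have h2 := K.mul_mem hk h1.1
      rwa [mul_inv_cancel_left] at h2
    · intro hg
      exact ⟨g, hg, rfl⟩
  have hK₀m : ∀ x, x ∈ K₀ ↔ c₀ x = 0 := by
    intro x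
    obtain ⟨g, rfl⟩ := QuotientGroup.mk_surjective x
    rw [hmem, hc₀, hK]
  -- `K₀` is isomorphic to the image of `K` in `Q`
  let φ : K →* Q := f.comp K.subtype
  let ψ : K →* G ⧸ M₀ := (QuotientGroup.mk' M₀).comp K.subtype
  have hφψ : ψ.ker = φ.ker := by
    ext k
    rw [MonoidHom.mem_ker, MonoidHom.mem_ker]
    show ((k : G) : G ⧸ M₀) = 1 ↔ f k = 1
    rw [QuotientGroup.eq_one_iff]
    exact ⟨fun h => h.2, fun h => ⟨k.2, h⟩⟩
  have hφr : φ.range = K.map f := by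
    show (f.comp K.subtype).range = K.map f
    rw [MonoidHom.range_comp, Subgroup.range_subtype]
  have hψr : ψ.range = K₀ := by
    show ((QuotientGroup.mk' M₀).comp K.subtype).range = _
    rw [MonoidHom.range_comp, Subgroup.range_subtype]
  let e : K₀ ≃* K.map f := (MulEquiv.subgroupCongr hψr.symm).trans
    ((QuotientGroup.quotientKerEquivRange ψ).symm.trans
      ((QuotientGroup.quotientMulEquivOfEq hφψ).trans
        ((QuotientGroup.quotientKerEquivRange φ).trans (MulEquiv.subgroupCongr hφr))))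
  have hK₀fg : Group.FG K₀ := by
    have h1 : Group.FG ψ.range := Group.fg_of_surjective ψ.rangeRestrict_surjective
    exact Group.fg_of_surjective (f := (MulEquiv.subgroupCongr hψr).toMonoidHom)
      (MulEquiv.subgroupCongr hψr).surjective
  have hK₀i : Infinite K₀ := Infinite.of_injective e.symm e.symm.injective
  have hK₀v : ¬ VirtIndicable K₀ := fun h => hnvi (H465.V19.virtIndicable_of_equiv e h)
  have hK₀f : Folner K₀ := H446.QC.folner_iso (H446.QC.folner_subgroup hQ (K.map f)) e.symm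
  have hG₀ : Folner (G ⧸ M₀) := folner_of_lat hlat₀ K₀ hK₀m hK₀f
  obtain ⟨M₂, hM₂n, q, L, c₁, K₁, hL, hc₁, hN⟩ :=
    normStmt (G ⧸ M₀) N c₀ hlat₀ K₀ hK₀m hK₀fg hK₀i hK₀v
  -- one quotient
  let θ : G →* (G ⧸ M₀) ⧸ M₂ := (QuotientGroup.mk' M₂).comp (QuotientGroup.mk' M₀)
  have hθ : Function.Surjective θ :=
    (QuotientGroup.mk'_surjective M₂).comp (QuotientGroup.mk'_surjective M₀)
  let e₂ : G ⧸ θ.ker ≃* (G ⧸ M₀) ⧸ M₂ := QuotientGroup.quotientKerEquivOfSurjective θ hθ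
  refine ⟨θ.ker, inferInstance, q, L, fun x => c₁ (e₂ x), K₁.comap e₂.toMonoidHom, hL,
    fun g => ?_, hN.congr e₂, ?_⟩
  · show c₁ (((g : G ⧸ M₀)) : (G ⧸ M₀) ⧸ M₂) = L (c g)
    rw [hc₁, hc₀]
  · exact H446.QC.folner_iso (folner_of_surjective (QuotientGroup.mk' M₂)
      (QuotientGroup.mk'_surjective M₂) hG₀) e₂.symm

end Vale.Agent.P284.H213.Q
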