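import Vale.Agent.P284.H213.Q.AsmQ
import Vale.Agent.P284.H213.Grp.CovP
import Vale.Agent.P284.H174.AlbU

/-!
# P284 (helper213), the parametrised group assembly for dominated manifolds
-/

open scoped Manifold ContDiff Topology Pointwise ComplexConjugate ComplexOrder
open Filter Set Metric MeasureTheory

noncomputable section

namespace Vale.Agent.P284.H213.Q

open Vale.Agent.P272.K Vale.Agent.P284.H248 Vale.Agent.P284.H894 Vale.Agent.P284.H894.G
  Vale.Agent.P284.H894.V Vale.Agent.P284.H894.W Vale.Agent.P284.H894.F Vale.Agent.P284.H998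
  Vale.Agent.P284.H213.Grp

/-- the class of the manifolds dominated by `ℂᴺ` -/
def domC (N : ℕ) : Cls := fun n X _ _ => H221.Dom N n X

theorem etSt_dom (N : ℕ) : EtSt (domC N) := by
  intro n X _ _ _ _ _ _ Y _ _ _ _ _ _ π hπ hπc hD
  exact dom_iff.1 ((dom_iff.2 hD).etale hπ hπc)

theorem albUD_dom (h0 : H619.NS0Stmt) (hs : H221.SigStmt) (N : ℕ) : AlbUD (domC N) := by
  intro n X _ _ _ _ _ _ ι _ J hD w hw E Γ _ _ _ _ p hG
  exact H174.albStmt3_of h0 hs n N X w hw ι J hD E Γ p hG

theorem mfd_dom (h : MFStmt) (N : ℕ) : MFD (domC N) := by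
  intro n X _ _ _ _ _ _ ι _ J hD
  exact h n N X ι J hD

/-- dominated manifolds: amenable quotients of the fundamental group -/
theorem mainPiQ_dom (h0 : H619.NS0Stmt) (hs : H221.SigStmt) (hM : MFStmt) {N : ℕ}
    (hCo : CoreD (domC N)) : MainPiQ (domC N) :=
  mainPiQ_of (mainSCQ_of (etSt_dom N) (albUD_dom h0 hs N) (mfd_dom hM N) hCo)

end Vale.Agent.P284.H213.Q
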