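import Vale.Agent.P284.H221.C7
import Vale.Agent.P284.H35.S4b

/-!
# P284 (helper213): the group of a connected fibre is finitely generated
-/

open scoped Manifold ContDiff Topology
open Filter Set Metric

noncomputable section

namespace Vale.Agent.P284.H213.Q

open Vale.Agent.P272.K Vale.Agent.P284.H894.G Vale.Agent.P284.H894.W

variable {n : ℕ} {X : Type} [TopologicalSpace X] [ChartedSpace (Cm n) X]
  {E Γ : Type} [TopologicalSpace E] [Group Γ] [MulAction Γ E] {p : E → X}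
  {q : ℕ} {F : E → Cm q} {c : Γ → Cm q}

/-- a group acting cocompactly on a connected fibre is finitely generated -/
theorem fg_of_conn (n : ℕ) [ChartedSpace (Cm n) X] [T2Space X] [CompactSpace X]
    (hp : IsGalois Γ p) (hFc : Continuous F)
    (hFe : ∀ (g : Γ) (y : E), F (g • y) = F y + c g)
    (hd : ∀ R : ℝ, {v | (∃ g : Γ, c g = v) ∧ ‖v‖ ≤ R}.Finite) (K : Subgroup Γ)
    (hK : ∀ k ∈ K, c k = 0)
    (hfi : ∃ S : Set Γ, S.Finite ∧ ∀ g, c g = 0 → ∃ f ∈ S, f⁻¹ * g ∈ K)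
    {t : Cm q} (hconn : IsConnected (F ⁻¹' {t})) : Group.FG K := by
  obtain ⟨⟨y₁, hy₁⟩, hpre⟩ := hconn
  have : Nonempty E := ⟨y₁⟩
  obtain ⟨C, hC, hCK⟩ := H221.exists_fund_K hp hFc hFe hd K hfi ‖t‖
  have hwl : WeaklyLocallyCompactSpace E := ⟨fun y => by
    obtain ⟨A, h1, h2, -⟩ := H35.S4.exists_cpt (p := p) n hp.cov y univ univ_mem
    exact ⟨A, h1, h2⟩⟩
  obtain ⟨C', hC', hCC'⟩ := exists_compact_superset hC
  have hS : ∀ k ∈ K, ∀ y, F y = t → F (k • y) = t := fun k hk y hy => by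
    rw [hFe, hK k hk, add_zero, hy]
  have hCK' : ∀ y, F y = t → ∃ k ∈ K, k • y ∈ interior C' := fun y hy => by
    obtain ⟨k, hk, h⟩ := hCK y (by rw [hy])
    exact ⟨k, hk, hCC' h⟩
  obtain ⟨y₀, hy₀, hy₀C⟩ : ∃ y₀, F y₀ = t ∧ y₀ ∈ interior C' := by
    obtain ⟨k, hk, h⟩ := hCK' y₁ hy₁
    exact ⟨k • y₁, hS k hk y₁ hy₁, h⟩
  set T : Set Γ := {k | k ∈ K ∧ ∃ x ∈ C', k • x ∈ C'} with hT
  have hTf : T.Finite := (H35.S4.proper_disc (Γ := Γ) hp C' hC').subset fun k hk => hk.2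
  set H : Subgroup Γ := Subgroup.closure T with hH
  have hHK : H ≤ K := (Subgroup.closure_le K).2 fun k hk => hk.1
  have hKH : K ≤ H := by
    intro k hk
    by_contra hkH
    set U₁ : Set E := ⋃ h ∈ {h : Γ | h ∈ H}, (fun y => h • y) ⁻¹' interior C' with hU₁
    set U₂ : Set E := ⋃ h ∈ {h : Γ | h ∈ K ∧ h ∉ H}, (fun y => h • y) ⁻¹' interior C' with hU₂
    have h1 : IsOpen U₁ := isOpen_biUnion fun h _ => isOpen_interior.preimage (hp.cont h)
    have h2 : IsOpen U₂ := isOpen_biUnion fun h _ => isOpen_interior.preimage (hp.cont h)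
    have h3 : F ⁻¹' {t} ⊆ U₁ ∪ U₂ := by
      intro y hy
      obtain ⟨h, hh, hy'⟩ := hCK' y hy
      by_cases hhH : h ∈ H
      · exact Or.inl (mem_biUnion (x := h) hhH hy')
      · exact Or.inr (mem_biUnion (x := h) ⟨hh, hhH⟩ hy')
    have h4 : (F ⁻¹' {t} ∩ U₁).Nonempty :=
      ⟨y₀, hy₀, mem_biUnion (x := (1 : Γ)) H.one_mem (by
        show (1 : Γ) • y₀ ∈ interior C'
        rwa [one_smul])⟩
    have h5 : (F ⁻¹' {t} ∩ U₂).Nonempty :=
      ⟨k⁻¹ • y₀, hS _ (K.inv_mem hk) y₀ hy₀, mem_biUnion (x := k) ⟨hk, hkH⟩ (by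
        show k • k⁻¹ • y₀ ∈ interior C'
        rwa [smul_inv_smul])⟩
    obtain ⟨y, -, hyU₁, hyU₂⟩ := hpre U₁ U₂ h1 h2 h3 h4 h5
    obtain ⟨h, hh, hhy⟩ := mem_iUnion₂.1 hyU₁
    obtain ⟨l, ⟨hlK, hlH⟩, hly⟩ := mem_iUnion₂.1 hyU₂
    have h6 : l * h⁻¹ ∈ T := by
      refine ⟨K.mul_mem hlK (K.inv_mem (hHK hh)), h • y, interior_subset hhy, ?_⟩
      rw [smul_smul, inv_mul_cancel_right]
      exact interior_subset hly
    have h7 := H.mul_mem (Subgroup.subset_closure h6) hh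
    rw [inv_mul_cancel_right] at h7
    exact hlH h7
  have hfg : K.FG := ⟨hTf.toFinset, by
    rw [hTf.coe_toFinset]
    exact le_antisymm hHK hKH⟩
  exact (Group.fg_iff_subgroup_fg K).2 hfg

end Vale.Agent.P284.H213.Q
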