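import Vale.Agent.P284.H213.Q.AsmQS
import Vale.Agent.P284.H213.Q.GrpQ
import Vale.Agent.P284.H213.Q.Fg
import Vale.Agent.P284.H213.Grp.AsmR
import Vale.Agent.P284.H885.Cov
import Vale.Agent.P284.H894.A.Final
import Vale.Agent.P284.H10.Uni

/-!
# P284 (helper213), group assembly with a class `D` of manifolds and amenable quotients
-/

open scoped Manifold ContDiff Topology Pointwise ComplexConjugate ComplexOrder
open Filter Set Metric MeasureTheory

noncomputable section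

namespace Vale.Agent.P284.H213.Q

open Vale.Agent.P272.K Vale.Agent.P284.H248 Vale.Agent.P284.H894 Vale.Agent.P284.H894.G
  Vale.Agent.P284.H894.V Vale.Agent.P284.H894.W Vale.Agent.P284.H894.F Vale.Agent.P284.H998
  Vale.Agent.P284.H213.Grp Vale.Agent.P284.H409.A Vale.Agent.P284.H913.Tube Vale.Agent.P284.H10

section
variable {n : ℕ} {X : Type} [TopologicalSpace X] [T2Space X] [CompactSpace X] [ConnectedSpace X]
  [ChartedSpace (Cm n) X] [IsManifold 𝓘(ℂ, Cm n) ω X]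
  {w : Chart n X → Cm n → Matrix (Fin n) (Fin n) ℂ}
  {E Γ : Type} [TopologicalSpace E] [SimplyConnectedSpace E] [Group Γ] [MulAction Γ E]
  {p : E → X} {G K : Subgroup Γ} {N : ℕ} {F : E → Cm N} {c : Γ → Cm N}

/-- a quadratic function on the periods contradicts the maximality of the Albanese data -/
theorem end_of_reg (hw : IsKahler w) (hp : IsGalois Γ p)
    (hAl : Alb p w G K F c) (hreg : ∃ y, Reg (n := n) p F y)
    (h : ∃ G₂ : Subgroup Γ, G₂.FiniteIndex ∧ G₂ ≤ G ∧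
      ∃ (f : Γ → ℝ) (B : Cm N →ₗ[ℝ] Cm N →ₗ[ℝ] ℝ),
      (∀ g' ∈ G₂, ∀ g ∈ G₂, f (g' * g) = f g' + f g + B (c g') (c g)) ∧
      ∃ k ∈ G₂, c k = 0 ∧ f k ≠ 0) : False := by
  have hadd := alb_add hAl
  obtain ⟨G₂, hG₂, hle, f, B, hf, k, hk, hk0, hfk⟩ := h
  have hsym := stkStmt n X w hw E Γ p hp N F hAl.hol hreg G₂ c hG₂
    (fun g hg y => hAl.equiv g (hle hg) y) f B hf
  have h1 := hAl.max G₂ hG₂ hle (fun g => f g - B (c g) (c g) / 2) (by
    intro g hg h hh
    show f (g * h) - B (c (g * h)) (c (g * h)) / 2 = _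
    rw [hf g hg h hh, hadd g (hle hg) h (hle hh)]
    simp only [map_add, LinearMap.add_apply]
    rw [hsym (c h) (c g)]
    ring) k hk hk0
  apply hfk
  rw [hk0] at h1
  simpa using h1

/-- unitarity, from the connectedness of the generic fibre -/
theorem uni_of_conn (hw : IsKahler w) (hp : IsGalois Γ p) (hA : Alb p w G K F c)
    (hgc : GenConn (n := n) p F) : Uni G c := by
  intro G₁ hfi hle χ f hne hmul hf hg k hk hck hχk
  obtain ⟨g₀, hg₀, hg₀1⟩ := hg
  obtain ⟨B₀, hB₀⟩ := hA.hol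
  obtain ⟨lam, hlam, B, hψ⟩ := psiStmt n X w hw E Γ p hp G K N F c hA G₁ hfi hle χ hne hmul
  have hlog : Real.log ‖χ g₀‖ ≠ 0 :=
    Real.log_ne_zero_of_pos_of_ne_one (norm_pos_iff.2 (hne g₀ hg₀)) hg₀1
  have hlam0 : lam ≠ 0 := by
    rintro rfl
    exact hlog (by rw [hlam g₀ hg₀]; rfl)
  have hψe : ∀ g ∈ G₁, ∀ y, lam (F (g • y)) = lam (F y) + Real.log ‖χ g‖ := by
    intro g hg y
    rw [hA.equiv g (hle hg), map_add, hlam g hg]
  obtain ⟨T, hT, hTi, hTS⟩ := hgc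
  obtain ⟨t, ht⟩ : ∃ t, t ∉ T := by
    by_contra hcon
    push Not at hcon
    have h1 : T = univ := eq_univ_of_forall hcon
    rw [h1, interior_univ] at hTi
    exact univ_nonempty.ne_empty hTi
  obtain ⟨⟨⟨x, hx⟩, hpre⟩, hreg⟩ := hTS t ht
  obtain ⟨u, hu1, hu2⟩ := H894.A.elConcl n X w hw E Γ p hp G₁ hfi χ f (fun y => lam (F y)) B hne
    hmul hf hψ hψe
    ⟨g₀ • x, x, by
      show lam (F (g₀ • x)) ≠ lam (F x)
      rw [hψe g₀ hg₀]
      simpa using hlog⟩
  have key : ∀ s ∈ K, s ∈ G₁ → χ s = 1 → f s = 0 := by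
    intro s hs hs1 hχs
    let T' : E ≃ₜ E :=
      { toFun := fun y => s • y
        invFun := fun y => s⁻¹ • y
        left_inv := fun y => inv_smul_smul s y
        right_inv := fun y => smul_inv_smul s y
        continuous_toFun := hp.cont s
        continuous_invFun := hp.cont s⁻¹ }
    refine tube hp.cov (V := F ⁻¹' {t}) hpre (y₀ := t) (fun y hy => hy)
      (fun y hy => H35.A9.vdStmt n X w hw E p hp.cov N F B₀ hB₀ lam hlam0 u y (hreg y hy) (hu2 y))
      T' (fun y => p_smul' hp s y) (fun y => K_smul hA hs y) (fun j y => ?_) hx ?_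
    · show u j (s • y) = u j y + f s
      rw [hu1 j s hs1 y, hχs, one_mul]
    · show F (s • x) = t
      rw [K_smul hA hs x]
      exact hx
  exact key k ((hA.mem k).2 ⟨hle hk, hck⟩) hk hχk

end

/-- **Group assembly**, for a class `D` of manifolds and amenable quotients. -/
theorem mainSCQ_of {D : Cls} (hst : EtSt D) (hA : AlbUD D) (hM : MFD D) (hCo : CoreD D) :
    MainSCQ D := by
  intro n X _ _ _ _ _ _ ι _ J hD w hw E Γ _ _ _ _ p hp Q _ f hf hQ
  obtain ⟨_, _, _, hfg, -⟩ := H639.V.v15Stmt n X w hw E Γ p hp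
  obtain ⟨G, K, N, F, c, hAl, y₀, hreg⟩ := hA n X ι J hD w hw E Γ p hp
  have hadd := alb_add hAl
  have hlat := latChar_of_alb hAl
  obtain ⟨B, hB⟩ := hAl.hol
  -- the finite covering `Y = E / G`
  obtain ⟨Y, _, _, _, _, _, _, pY, π, hπ, hπc, hpY, hπp⟩ := H885.exists_quo n X E Γ p hp G hAl.fi
  have hDY : D n Y := hst n X Y π hπ hπc hD
  have hwY : IsKahler (H885.pull π w) := hπ.isKahler hw
  have hBY : HolB pY (H885.pull π w) F B := hπ.holB hπp hB
  have hregY : Reg (n := n) pY F y₀ := (hπ.reg_iff hπp).2 hreg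
  have hequiv : ∀ (g : G) (y : E), F (g • y) = F y + c g := fun g y => hAl.equiv g g.2 y
  have hgcY : GenConn (n := n) pY F := hM n Y ι (hπ.pj J) hDY _ hwY E G pY hpY N F
    (fun g : G => c g) ⟨B, hBY⟩ hequiv hlat ⟨y₀, hregY⟩
  have hgc : GenConn (n := n) p F := by
    obtain ⟨T, hT, hTi, hTS⟩ := hgcY
    exact ⟨T, hT, hTi, fun t ht => ⟨(hTS t ht).1, fun y hy => (hπ.reg_iff hπp).1 ((hTS t ht).2 y hy)⟩⟩
  -- the kernel is finitely generated
  have hKG : K ≤ G := fun g hg => ((hAl.mem g).1 hg).1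
  have hKmem : ∀ g : G, g ∈ K.subgroupOf G ↔ c g = 0 := fun g => by
    rw [Subgroup.mem_subgroupOf, hAl.mem]
    exact ⟨fun h => h.2, fun h => ⟨g.2, h⟩⟩
  have hKfgG : Group.FG (K.subgroupOf G) := by
    obtain ⟨T, hT, hTi, hTS⟩ := hgc
    obtain ⟨t, ht⟩ : ∃ t, t ∉ T := by
      by_contra hcon
      push Not at hcon
      have h1 : T = univ := eq_univ_of_forall hcon
      rw [h1, interior_univ] at hTi
      exact univ_nonempty.ne_empty hTi
    refine fg_of_conn n hpY (H221.holB_cont hp.cov hB) hequiv hlat.disc (K.subgroupOf G)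
      (fun k hk => (hKmem k).1 hk) ⟨{1}, finite_singleton _, fun g hg => ⟨1, rfl, ?_⟩⟩ (hTS t ht).1
    rw [inv_one, one_mul]
    exact (hKmem g).2 hg
  let e : K.subgroupOf G ≃* K := Subgroup.subgroupOfEquivOfLe hKG
  have hKfg : Group.FG K := Group.fg_of_surjective (f := e.toMonoidHom) e.surjective
  have hKffg : Group.FG (K.map f) :=
    Group.fg_of_surjective (f := f.subgroupMap K) (f.subgroupMap_surjective K)
  by_cases hK : Finite (K.map f)
  · exact (finR f hf hfg G K hAl.fi N c hadd hAl.mem hAl.disc hAl.span hK).mono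
      (Nat.mul_le_mul_left 2 (le_of_reg hB hreg))
  exfalso
  rw [not_finite_iff_infinite] at hK
  have hnvi : ¬ VirtIndicable (K.map f) := fun hv => end_of_reg hw hp hAl ⟨y₀, hreg⟩
    (grpAStmt Γ Q f hf hfg G K hAl.fi N c hadd hAl.mem hAl.disc hAl.span hKffg hv
      (uni_of_conn hw hp hAl hgc))
  -- normalisation
  have hmap : (K.subgroupOf G).map (f.comp G.subtype) = K.map f := by
    rw [← Subgroup.map_map, Subgroup.subgroupOf_map_subtype, inf_eq_left.2 hKG]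
  obtain ⟨M, hMn, q₁, L, c₁, K₁, hL, hc₁, hN, hFM⟩ := normQ (f.comp G.subtype) hQ N
    (fun g : G => c g) hlat (K.subgroupOf G) hKmem hKfgG (by rw [hmap]; exact hK)
    (by rw [hmap]; exact hnvi)
  obtain ⟨B', hB'⟩ := HolB.linear hBY L
  have hinv : ∀ m ∈ M, ∀ y, L (F (m • y)) = L (F y) := by
    intro m hm y
    have h1 : (m : G ⧸ M) = ((1 : G) : G ⧸ M) := by
      rw [QuotientGroup.eq]
      simpa using hm
    have h2 := hc₁ m
    rw [h1, hc₁ 1] at h2
    have h3 : L (c (1 : G)) = 0 := by rw [hlat.map_one, map_zero]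
    rw [hequiv, map_add, ← h2, h3, add_zero]
  -- the covering `E / M`
  have hp₁ := H885.isGalois_toX hpY M
  have hcon₁ : ConnectedSpace (H885.Quo E M) := H885.connected_quo M
  let F₁ : H885.Quo E M → Cm q₁ := H885.desc M (fun y => L (F y)) hinv
  have hF₁ : HolB (H885.toX hpY M) (H885.pull π w) F₁ B' := H885.holB_desc hpY M hinv hB'
  have hregL : Reg (n := n) pY (fun y => L (F y)) y₀ := Reg.linear hpY.cov hBY L hL hregY
  have hreg₁ : Reg (n := n) (H885.toX hpY M) F₁ (H885.mk M y₀) :=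
    (H885.reg_desc hpY M hinv y₀).2 hregL
  have heq : ∀ (g : G ⧸ M) (y : H885.Quo E M), F₁ (g • y) = F₁ y + c₁ g := by
    intro g y
    obtain ⟨g, rfl⟩ := QuotientGroup.mk_surjective g
    obtain ⟨y, rfl⟩ := H885.mk_surjective M y
    rw [H885.quo_smul_mk]
    show L (F (g • y)) = L (F y) + c₁ (g : G ⧸ M)
    rw [hequiv, map_add, hc₁]
  have hgc₁ := hM n Y ι (hπ.pj J) hDY _ hwY (H885.Quo E M) (G ⧸ M) _ hp₁ q₁ F₁ c₁ ⟨B', hF₁⟩ heq
    hN.lat ⟨_, hreg₁⟩
  exact hCo n Y ι (hπ.pj J) hDY _ hwY (H885.Quo E M) (G ⧸ M) _ hp₁ hFM q₁ F₁ c₁ K₁ ⟨B', hF₁⟩ heq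
    ⟨_, hreg₁⟩ hgc₁ hN

/-- amenable quotients of the fundamental group -/
theorem mainPiQ_of {D : Cls} (h : MainSCQ D) : MainPiQ D := by
  intro n X _ _ _ _ _ _ ι _ J hD w hw x Q _ f hf hQ
  obtain ⟨Y, Γ, tY, hsc, gΓ, aΓ, π, e, hG⟩ := H977.exists_uc (n := n) X x
  exact h n X ι J hD w hw Y Γ π hG Q (f.comp e.symm.toMonoidHom) (hf.comp e.symm.surjective) hQ

end Vale.Agent.P284.H213.Q
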