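import Vale.Agent.P284.H213.MF.MfU
import Vale.Agent.P284.H619.NS0F

/-!
# P284 (helper213), the group assembly for dominated manifolds: only the core is left
-/

open scoped Manifold ContDiff Topology Pointwise ComplexConjugate ComplexOrder
open Filter Set Metric MeasureTheory

noncomputable section

namespace Vale.Agent.P284.H213.Q

/-- dominated manifolds: amenable quotients of the fundamental group, from the core -/
theorem mainPiQ_domU {N : ℕ} (hCo : CoreD (domC N)) : MainPiQ (domC N) :=
  mainPiQ_dom H619.ns0Stmt H221.sigStmt MF.mfStmt hCo

end Vale.Agent.P284.H213.Q
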