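import Vale.Agent.P284.H213.Q.FinD
import Vale.Agent.P284.H213.MF.MfW
import Vale.Agent.P284.H501.Core.Uni

/-!
# P284 (helper213), the group assembly: amenable quotients, from the limit theorem, `NS2Stmt` and
`CStmt`
-/

open scoped Manifold ContDiff Topology Pointwise ComplexConjugate ComplexOrder
open Filter Set Metric MeasureTheory

noncomputable section

namespace Vale.Agent.P284.H213.Q

open Vale.Agent.P284.H501.Core Vale.Agent.P284.H174.GD

theorem noFormD_of_sigD {D : Cls} (h : MF.SigD D) : NoFormD D := by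
  intro n X _ _ _ _ _ _ ι _ J hD E Γ _ _ _ _ p hp R m hR hm H _ _ _ v hv y hy
  exact h n R m hR hm X ι J hD E p hp.cov hp.surj H v hv ⟨y, hy⟩

/-- the core for a class with SIG -/
theorem coreD_of_sigD {D : Cls} (hLim : ∀ q, LimAt q) (hNS : NS2Stmt) (hC : H378.CStmt)
    (h : MF.SigD D) : CoreD D := coreD_of hLim hNS hC (noFormD_of_sigD h)

/-- dominated manifolds -/
theorem mainPiQ_domE {N : ℕ} (hLim : ∀ q, LimAt q) (hNS : NS2Stmt) (hC : H378.CStmt) :
    MainPiQ (domC N) := mainPiQ_domU (coreD_of_sigD hLim hNS hC (MF.sigD_dom N))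

/-- every class with SIG and RAM, stable under étale coverings, with ALB+U -/
theorem mainPiQ_E {D : Cls} (hLim : ∀ q, LimAt q) (hNS : NS2Stmt) (hC : H378.CStmt)
    (hE : EtSt D) (hA : AlbUD D) (hs : MF.SigD D) (hr : MF.NoRamD D) : MainPiQ D :=
  mainPiQ_of (mainSCQ_of hE hA (MF.mfDU hs hr) (coreD_of_sigD hLim hNS hC hs))

/-- manifolds with a holomorphic map `ℂᴺ → X` of rank `n` at one point -/
theorem mainPiQ_domWE {N : ℕ} (hLim : ∀ q, LimAt q) (hNS : NS2Stmt) (hC : H378.CStmt)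
    (hE : EtSt fun n X _ _ => DomW N n X) (hA : AlbUD fun n X _ _ => DomW N n X) :
    MainPiQ fun n X _ _ => DomW N n X :=
  mainPiQ_E hLim hNS hC hE hA (MF.sigD_domW N) (MF.noRamD_domW N)

end Vale.Agent.P284.H213.Q
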