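import Vale.Agent.P284.H213.Q.FinE
import Vale.Agent.P284.H174.AlbD
import Vale.Agent.P284.H573.PT.PotS
import Vale.Agent.P284.H378.Fin

/-!
# P284 (helper213), the group assembly: amenable quotients, from `NS2Stmt`
-/

open scoped Manifold ContDiff Topology Pointwise ComplexConjugate ComplexOrder
open Filter Set Metric MeasureTheory

noncomputable section

namespace Vale.Agent.P284.H213.Q

open Vale.Agent.P284.H501.Core Vale.Agent.P284.H174.GD Vale.Agent.P284.H174

/-- every class with SIG and RAM, stable under étale coverings, with ALB+U -/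
theorem mainPiQ_cls {D : Cls} (hNS : NS2Stmt) (hE : EtSt D) (hA : AlbUD D) (hs : MF.SigD D)
    (hr : MF.NoRamD D) : MainPiQ D :=
  mainPiQ_E H573.PT.limAt hNS H378.cStmt hE hA hs hr

/-- dominated manifolds -/
theorem mainPiQ_dom_ns2 (N : ℕ) (hNS : NS2Stmt) : MainPiQ (domC N) :=
  mainPiQ_domE H573.PT.limAt hNS H378.cStmt

/-- manifolds with a holomorphic map `ℂᴺ → X` of rank `n` at one point -/
theorem mainPiQ_domW_ns2 (N : ℕ) (hNS : NS2Stmt) : MainPiQ (domWC N) :=
  mainPiQ_cls hNS (etSt_domW N) (albUD_domW N) (MF.sigD_domW N) (MF.noRamD_domW N)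

end Vale.Agent.P284.H213.Q
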