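import Vale.Agent.P284.H213.Q.FinG
import Vale.Agent.P284.H812.NSF18

/-!
# P284 (helper213): amenable quotients of the fundamental groups of dominated manifolds
-/

noncomputable section

namespace Vale.Agent.P284.H213.Q

open Vale.Agent.P284.H174

/-- the core for a class with SIG -/
theorem coreDU {D : Cls} (h : MF.SigD D) : CoreD D :=
  coreD_of_sigD H573.PT.limAt H812.NSF.ns2 H378.cStmt h

/-- **dominated manifolds**: every amenable quotient of the fundamental group is virtually abelian -/
theorem mainPiQ_domF (N : ℕ) : MainPiQ (domC N) := mainPiQ_dom_ns2 N H812.NSF.ns2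

/-- **manifolds with a holomorphic map `ℂᴺ → X` of rank `n` at one point**: every amenable quotient of
the fundamental group is virtually abelian -/
theorem mainPiQ_domWF (N : ℕ) : MainPiQ (domWC N) := mainPiQ_domW_ns2 N H812.NSF.ns2

/-- every class with SIG and RAM, stable under étale coverings, with ALB+U -/
theorem mainPiQ_clsU {D : Cls} (hE : EtSt D) (hA : AlbUD D) (hs : MF.SigD D)
    (hr : MF.NoRamD D) : MainPiQ D := mainPiQ_cls H812.NSF.ns2 hE hA hs hr

end Vale.Agent.P284.H213.Q
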