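import Vale.Agent.P284.H446.FolSub
import Vale.Agent.P284.H446.S1

/-!
# P284 (helper213): extensions of amenable groups are amenable (Følner's condition)
-/

open scoped Topology Pointwise
open Filter Set Metric

noncomputable section

namespace Vale.Agent.P284.H213.Q

open Vale.Agent.P284.H894.G

lemma ncard_bad {A : Type*} [Group A] (t : A) (F : Set A) :
    {a | a ∈ F ∧ t * a ∉ F}.ncard = ((t • F) \ F).ncard := by
  rw [← Set.ncard_image_of_injective {a | a ∈ F ∧ t * a ∉ F} (mul_right_injective t)]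
  congr 1
  ext x
  constructor
  · rintro ⟨a, ⟨h1, h2⟩, rfl⟩
    exact ⟨⟨a, h1, rfl⟩, h2⟩
  · rintro ⟨⟨a, h1, rfl⟩, h2⟩
    exact ⟨a, ⟨h1, h2⟩, rfl⟩

/-- An extension of an amenable group by an amenable group is amenable. -/
theorem folner_ext {G A : Type*} [Group G] [Group A] (f : G →* A) (hf : Function.Surjective f)
    (hA : Folner A) (hK : Folner f.ker) : Folner G := by
  classical
  intro S hS ε hε
  obtain ⟨FA, hFA, hFAne, hFAs⟩ := hA (f '' S) (hS.image _) (ε / 2) (by positivity)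
  set σ : A → G := Function.surjInv hf with hσ
  have hfσ : ∀ a, f (σ a) = a := Function.surjInv_eq hf
  let κ : G → A → f.ker := fun s a => ⟨(σ (f s * a))⁻¹ * (s * σ a), by
    rw [MonoidHom.mem_ker, map_mul, map_inv, map_mul, hfσ, hfσ, inv_mul_cancel]⟩
  have hκ : ∀ s a, σ (f s * a) * (κ s a : G) = s * σ a := fun s a => by
    show σ (f s * a) * ((σ (f s * a))⁻¹ * (s * σ a)) = _
    rw [mul_inv_cancel_left]
  obtain ⟨FK, hFK, hFKne, hFKs⟩ := hK ((fun x : G × A => κ x.1 x.2) '' (S ×ˢ FA))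
    ((hS.prod hFA).image _) (ε / 2) (by positivity)
  let m : A × f.ker → G := fun x => σ x.1 * (x.2 : G)
  have hm : Function.Injective m := by
    rintro ⟨a, k⟩ ⟨b, l⟩ h
    have h1 : f (m (a, k)) = a := by
      show f (σ a * (k : G)) = a
      rw [map_mul, hfσ, MonoidHom.mem_ker.1 k.2, mul_one]
    have h2 : f (m (b, l)) = b := by
      show f (σ b * (l : G)) = b
      rw [map_mul, hfσ, MonoidHom.mem_ker.1 l.2, mul_one]
    have h3 : a = b := by rw [← h1, h, h2]
    subst h3
    have h4 : (k : G) = l := mul_left_cancel h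
    rw [Subtype.ext h4]
  have hcard : ((m '' (FA ×ˢ FK)).ncard : ℝ) = FA.ncard * FK.ncard := by
    rw [Set.ncard_image_of_injective _ hm, Set.ncard_prod]
    push_cast
    rfl
  refine ⟨m '' (FA ×ˢ FK), (hFA.prod hFK).image _, (hFAne.prod hFKne).image _, fun s hs => ?_⟩
  rw [hcard]
  -- the bad pairs
  set B1 : Set (A × f.ker) := {a | a ∈ FA ∧ f s * a ∉ FA} ×ˢ FK with hB1
  set B2 : Set (A × f.ker) := ⋃ a ∈ hFA.toFinset, {a} ×ˢ {k | k ∈ FK ∧ κ s a * k ∉ FK} with hB2
  have hB1f : B1.Finite := (hFA.subset fun a h => h.1).prod hFK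
  have hB2f : B2.Finite := by
    refine (hFA.prod hFK).subset ?_
    rintro ⟨a, k⟩ hak
    rw [hB2] at hak
    simp only [Set.mem_iUnion, Set.Finite.mem_toFinset, Set.mem_prod, Set.mem_singleton_iff,
      exists_prop] at hak
    obtain ⟨b, hb, rfl, h⟩ := hak
    exact ⟨hb, h.1⟩
  have hsub : (s • (m '' (FA ×ˢ FK))) \ (m '' (FA ×ˢ FK)) ⊆
      (fun x => s * m x) '' (B1 ∪ B2) := by
    rintro _ ⟨⟨_, ⟨⟨a, k⟩, ⟨ha, hk⟩, rfl⟩, rfl⟩, hn⟩
    refine ⟨(a, k), ?_, rfl⟩
    by_contra hc
    rw [mem_union, not_or] at hc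
    apply hn
    have h1 : f s * a ∈ FA := by
      by_contra h
      exact hc.1 ⟨⟨ha, h⟩, hk⟩
    have h2 : κ s a * k ∈ FK := by
      by_contra h
      apply hc.2
      rw [hB2]
      simp only [Set.mem_iUnion, Set.Finite.mem_toFinset, Set.mem_prod, Set.mem_singleton_iff,
        exists_prop]
      exact ⟨a, ha, rfl, hk, h⟩
    refine ⟨(f s * a, κ s a * k), ⟨h1, h2⟩, ?_⟩
    show σ (f s * a) * ((κ s a : G) * (k : G)) = s * (σ a * (k : G))
    rw [← mul_assoc, hκ, mul_assoc]
  have h1 : (((s • (m '' (FA ×ˢ FK))) \ (m '' (FA ×ˢ FK))).ncard : ℝ) ≤ (B1 ∪ B2).ncard := by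
    exact_mod_cast (Set.ncard_le_ncard hsub ((hB1f.union hB2f).image _)).trans
      (Set.ncard_image_le (hB1f.union hB2f))
  have h2 : ((B1 ∪ B2).ncard : ℝ) ≤ B1.ncard + B2.ncard := by
    exact_mod_cast Set.ncard_union_le B1 B2
  have h3 : (B1.ncard : ℝ) ≤ ε / 2 * FA.ncard * FK.ncard := by
    rw [hB1, Set.ncard_prod, ncard_bad]
    push_cast
    exact mul_le_mul_of_nonneg_right (hFAs (f s) ⟨s, hs, rfl⟩) (Nat.cast_nonneg _)
  have h4 : (B2.ncard : ℝ) ≤ FA.ncard * (ε / 2 * FK.ncard) := by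
    have h5 : B2.ncard ≤ ∑ a ∈ hFA.toFinset, ({a} ×ˢ {k | k ∈ FK ∧ κ s a * k ∉ FK}).ncard := by
      rw [hB2]
      exact Finset.set_ncard_biUnion_le _ _
    have h6 : (B2.ncard : ℝ) ≤
        ∑ a ∈ hFA.toFinset, (({a} ×ˢ {k | k ∈ FK ∧ κ s a * k ∉ FK}).ncard : ℝ) := by
      exact_mod_cast h5
    refine h6.trans ?_
    have h7 : ∀ a ∈ hFA.toFinset, (({a} ×ˢ {k | k ∈ FK ∧ κ s a * k ∉ FK}).ncard : ℝ) ≤
        ε / 2 * FK.ncard := by
      intro a ha
      rw [Set.ncard_prod, Set.ncard_singleton, one_mul, ncard_bad]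
      exact hFKs _ ⟨(s, a), ⟨hs, hFA.mem_toFinset.1 ha⟩, rfl⟩
    refine (Finset.sum_le_sum h7).trans ?_
    rw [Finset.sum_const, nsmul_eq_mul, Set.ncard_eq_toFinset_card _ hFA]
  calc _ ≤ _ := h1
    _ ≤ _ := h2
    _ ≤ ε / 2 * FA.ncard * FK.ncard + FA.ncard * (ε / 2 * FK.ncard) := add_le_add h3 h4
    _ = _ := by ring

/-- `ℤᵐ` is amenable -/
theorem folner_zpow (m : ℕ) : Folner (Multiplicative (Fin m → ℤ)) := by
  induction m with
  | zero =>
    intro S hS ε hε
    refine ⟨{1}, finite_singleton _, singleton_nonempty _, fun s _ => ?_⟩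
    have h1 : (s • ({1} : Set (Multiplicative (Fin 0 → ℤ)))) \ {1} = ∅ := by
      ext x
      have : x = 1 := Subsingleton.elim _ _
      simp [this]
    rw [h1, Set.ncard_empty, Nat.cast_zero]
    positivity
  | succ m ih =>
    let f : Multiplicative (Fin (m + 1) → ℤ) →* Multiplicative ℤ :=
      AddMonoidHom.toMultiplicative (Pi.evalAddMonoidHom (fun _ : Fin (m + 1) => ℤ) 0)
    refine folner_ext f (fun x => ⟨Multiplicative.ofAdd fun _ => Multiplicative.toAdd x, rfl⟩)
      Vale.Agent.P284.H446.V.folner_int ?_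
    let g : Multiplicative (Fin m → ℤ) →* f.ker :=
      { toFun := fun x => ⟨Multiplicative.ofAdd (Fin.cons 0 (Multiplicative.toAdd x)), by
          rw [MonoidHom.mem_ker]; rfl⟩
        map_one' := by
          refine Subtype.ext (Multiplicative.toAdd.injective (funext fun i => ?_))
          refine Fin.cases ?_ (fun j => ?_) i <;> rfl
        map_mul' := fun x y => by
          refine Subtype.ext (Multiplicative.toAdd.injective (funext fun i => ?_))
          refine Fin.cases ?_ (fun j => ?_) i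
          · rfl
          · rfl }
    have hg : Function.Bijective g := by
      constructor
      · intro x y h
        have h1 := congrArg Subtype.val h
        refine Multiplicative.toAdd.injective (funext fun i => ?_)
        have h2 := congrFun (congrArg Multiplicative.toAdd h1) i.succ
        exact h2
      · rintro ⟨x, hx⟩
        rw [MonoidHom.mem_ker] at hx
        refine ⟨Multiplicative.ofAdd fun i => Multiplicative.toAdd x i.succ, ?_⟩
        refine Subtype.ext (Multiplicative.toAdd.injective (funext fun i => ?_))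
        refine Fin.cases ?_ (fun j => ?_) i
        · exact (congrArg Multiplicative.toAdd hx).symm
        · rfl
    exact Vale.Agent.P284.H446.QC.folner_iso ih (MulEquiv.ofBijective g hg)

end Vale.Agent.P284.H213.Q
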