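import Vale.Agent.P284.H213.Q.FolExt

/-!
# P284 (helper213): quotients of amenable groups are amenable (Følner's condition)
-/

open scoped Topology Pointwise
open Filter Set Metric

noncomputable section

namespace Vale.Agent.P284.H213.Q

open Vale.Agent.P284.H894.G

/-- the number of `k < m` with `a ≤ k < b` -/
lemma card_levels {m a b : ℕ} (hb : b ≤ m) :
    ((Finset.range m).filter fun k => k < b ∧ ¬ k < a).card = b - a := by
  have : ((Finset.range m).filter fun k => k < b ∧ ¬ k < a) = Finset.Ico a b := by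
    ext k
    simp only [Finset.mem_filter, Finset.mem_range, Finset.mem_Ico]
    omega
  rw [this, Nat.card_Ico]

/-- A quotient of an amenable group is amenable. -/
theorem folner_of_surjective {G H : Type*} [Group G] [Group H] (f : G →* H)
    (hf : Function.Surjective f) (hG : Folner G) : Folner H := by
  classical
  intro S hS ε hε
  set σ : H → G := Function.surjInv hf with hσ
  have hfσ : ∀ a, f (σ a) = a := Function.surjInv_eq hf
  have hS1 : (0 : ℝ) < S.ncard + 1 := by positivity
  obtain ⟨F', hF', hne, hFs⟩ := hG (σ '' S) (hS.image _) (ε / (S.ncard + 1)) (by positivity)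
  set F : Finset G := hF'.toFinset with hF
  have hFF : (F : Set G) = F' := hF'.coe_toFinset
  set φ : H → ℕ := fun x => (F.filter fun y => f y = x).card with hφ
  set m : ℕ := F.card with hm
  have hφm : ∀ x, φ x ≤ m := fun x => Finset.card_filter_le _ _
  set L : ℕ → Finset H := fun k => (F.image f).filter fun x => k < φ x with hL
  have hmemL : ∀ k x, x ∈ L k ↔ k < φ x := by
    intro k x
    rw [hL]
    simp only [Finset.mem_filter, and_iff_right_iff_imp]
    intro h
    have h1 : 0 < φ x := by omega
    obtain ⟨y, hy⟩ := Finset.card_pos.1 h1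
    rw [Finset.mem_filter] at hy
    exact Finset.mem_image.2 ⟨y, hy.1, hy.2⟩
  -- total mass
  have hsum : ∑ k ∈ Finset.range m, (L k).card = m := by
    have h1 : ∀ k, (L k).card = ∑ x ∈ F.image f, if k < φ x then 1 else 0 := fun k => by
      rw [hL, Finset.card_filter]
    simp_rw [h1]
    rw [Finset.sum_comm]
    have h2 : ∀ x ∈ F.image f, (∑ k ∈ Finset.range m, if k < φ x then 1 else 0) = φ x := by
      intro x _
      rw [← Finset.card_filter]
      have := card_levels (a := 0) (hφm x)
      simpa using this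
    rw [Finset.sum_congr rfl h2]
    exact (Finset.card_eq_sum_card_image f F).symm
  -- bad parts
  have hbad : ∀ s ∈ S, ∑ k ∈ Finset.range m, (((s • (L k : Set H)) \ (L k : Set H)).ncard) ≤
      ((σ s • F') \ F').ncard := by
    intro s hs
    set T : Finset H := F.image fun y => s * f y with hT
    have h1 : ∀ k, ((s • (L k : Set H)) \ (L k : Set H)).ncard ≤
        ∑ x ∈ T, if k < φ (s⁻¹ * x) ∧ ¬ k < φ x then 1 else 0 := by
      intro k
      rw [← Finset.card_filter, ← Set.ncard_coe_finset]
      refine Set.ncard_le_ncard ?_ (Finset.finite_toSet _)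
      rintro _ ⟨⟨x, hx, rfl⟩, hn⟩
      rw [Finset.mem_coe, hmemL] at hx
      have hn' : ¬ k < φ (s * x) := fun h => hn (by
        show s • x ∈ _
        rw [Finset.mem_coe, hmemL]
        exact h)
      rw [Finset.mem_coe, Finset.mem_filter]
      refine ⟨?_, ?_, hn'⟩
      · obtain ⟨y, hy⟩ := Finset.card_pos.1 (lt_of_le_of_lt (Nat.zero_le k) hx)
        rw [Finset.mem_filter] at hy
        exact Finset.mem_image.2 ⟨y, hy.1, by rw [hy.2]; rfl⟩
      · show k < φ (s⁻¹ * (s * x))
        rwa [inv_mul_cancel_left]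
    refine (Finset.sum_le_sum fun k _ => h1 k).trans ?_
    rw [Finset.sum_comm]
    have h2 : ∀ x ∈ T, (∑ k ∈ Finset.range m, if k < φ (s⁻¹ * x) ∧ ¬ k < φ x then 1 else 0) ≤
        ((F.filter fun y => σ s * y ∉ F).filter fun y => s * f y = x).card := by
      intro x _
      rw [← Finset.card_filter, card_levels (hφm _), tsub_le_iff_right]
      have h3 : (F.filter fun y => f y = s⁻¹ * x) ⊆
          ((F.filter fun y => σ s * y ∉ F).filter fun y => s * f y = x) ∪
            (F.filter fun y => f y = s⁻¹ * x ∧ σ s * y ∈ F) := by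
        intro y hy
        rw [Finset.mem_filter] at hy
        rw [Finset.mem_union, Finset.mem_filter, Finset.mem_filter, Finset.mem_filter]
        by_cases h : σ s * y ∈ F
        · exact Or.inr ⟨hy.1, hy.2, h⟩
        · exact Or.inl ⟨⟨hy.1, h⟩, by rw [hy.2, mul_inv_cancel_left]⟩
      refine (Finset.card_le_card h3).trans ((Finset.card_union_le _ _).trans ?_)
      gcongr
      refine Finset.card_le_card_of_injOn (fun y => σ s * y) ?_ ?_
      · intro y hy
        rw [Finset.mem_coe, Finset.mem_filter] at hy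
        rw [Finset.mem_coe, Finset.mem_filter]
        exact ⟨hy.2.2, by rw [map_mul, hfσ, hy.2.1, mul_inv_cancel_left]⟩
      · intro a _ b _ h
        exact mul_left_cancel h
    refine (Finset.sum_le_sum h2).trans ?_
    have h4 : ∑ x ∈ T, ((F.filter fun y => σ s * y ∉ F).filter fun y => s * f y = x).card ≤
        (F.filter fun y => σ s * y ∉ F).card := by
      rw [← Finset.card_eq_sum_card_fiberwise (s := F.filter fun y => σ s * y ∉ F)
        (f := fun y => s * f y) (t := T)]
      intro y hy
      rw [Finset.mem_coe, Finset.mem_filter] at hy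
      exact Finset.mem_coe.2 (Finset.mem_image.2 ⟨y, hy.1, rfl⟩)
    refine h4.trans (le_of_eq ?_)
    rw [← ncard_bad, ← Set.ncard_coe_finset]
    congr 1
    ext y
    rw [Finset.mem_coe, Finset.mem_filter]
    show _ ↔ y ∈ F' ∧ σ s * y ∉ F'
    rw [← hFF, Finset.mem_coe, Finset.mem_coe]
  -- a good level
  have htot : ∑ k ∈ Finset.range m, ∑ s ∈ hS.toFinset,
      (((s • (L k : Set H)) \ (L k : Set H)).ncard : ℝ) ≤
      ∑ k ∈ Finset.range m, ε * ((L k).card : ℝ) := by
    rw [Finset.sum_comm, ← Finset.mul_sum]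
    have h5 : ∀ s ∈ hS.toFinset,
        ∑ k ∈ Finset.range m, (((s • (L k : Set H)) \ (L k : Set H)).ncard : ℝ) ≤
        ε / (S.ncard + 1) * m := by
      intro s hs
      have h6 := hbad s (hS.mem_toFinset.1 hs)
      have h7 := hFs (σ s) ⟨s, hS.mem_toFinset.1 hs, rfl⟩
      have h8 : (F'.ncard : ℝ) = m := by
        rw [← hFF, Set.ncard_coe_finset]
      rw [h8] at h7
      refine le_trans ?_ h7
      exact_mod_cast h6
    refine (Finset.sum_le_sum h5).trans ?_
    rw [Finset.sum_const, nsmul_eq_mul]
    have h9 : ((hS.toFinset.card : ℕ) : ℝ) = S.ncard := by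
      rw [Set.ncard_eq_toFinset_card _ hS]
    have h10 : (∑ k ∈ Finset.range m, ((L k).card : ℝ)) = m := by
      exact_mod_cast hsum
    rw [h9, h10]
    have h11 : (S.ncard : ℝ) * (ε / (S.ncard + 1)) ≤ ε := by
      rw [← mul_div_assoc, div_le_iff₀ hS1]
      nlinarith
    calc (S.ncard : ℝ) * (ε / (S.ncard + 1) * m) = (S.ncard : ℝ) * (ε / (S.ncard + 1)) * m := by
          ring
      _ ≤ ε * m := mul_le_mul_of_nonneg_right h11 (Nat.cast_nonneg _)
  have hmpos : 0 < m := by
    rw [hm, Finset.card_pos]
    obtain ⟨y, hy⟩ := hne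
    exact ⟨y, by rw [← Finset.mem_coe, hFF]; exact hy⟩
  -- restrict the sums to the nonempty levels
  obtain ⟨k, hk, hkk⟩ : ∃ k, (L k).Nonempty ∧ ∑ s ∈ hS.toFinset,
      (((s • (L k : Set H)) \ (L k : Set H)).ncard : ℝ) ≤ ε * ((L k).card : ℝ) := by
    by_contra hcon
    push Not at hcon
    have h1 : ∀ k ∈ Finset.range m, ε * ((L k).card : ℝ) ≤ ∑ s ∈ hS.toFinset,
        (((s • (L k : Set H)) \ (L k : Set H)).ncard : ℝ) := by
      intro k _
      rcases (L k).eq_empty_or_nonempty with h | h
      · rw [h]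
        simp only [Finset.card_empty, Nat.cast_zero, mul_zero]
        exact Finset.sum_nonneg fun _ _ => Nat.cast_nonneg _
      · exact (hcon k h).le
    have h2 : (L 0).Nonempty := by
      obtain ⟨y, hy⟩ := Finset.card_pos.1 hmpos
      refine ⟨f y, (hmemL 0 (f y)).2 (Finset.card_pos.2 ⟨y, ?_⟩)⟩
      rw [Finset.mem_filter]
      exact ⟨hy, rfl⟩
    have h3 := Finset.sum_lt_sum h1 ⟨0, Finset.mem_range.2 hmpos, hcon 0 h2⟩
    linarith
  refine ⟨(L k : Set H), Finset.finite_toSet _, hk, fun s hs => ?_⟩
  rw [Set.ncard_coe_finset]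
  refine le_trans ?_ hkk
  exact Finset.single_le_sum (f := fun s => (((s • (L k : Set H)) \ (L k : Set H)).ncard : ℝ))
    (fun _ _ => Nat.cast_nonneg _) (hS.mem_toFinset.2 hs)

end Vale.Agent.P284.H213.Q
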